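import Vale.Agent.P160.Rate

/-!
# P160: singularity through a kernel vector that is not fully delocalised

The sample space is `Sym2 (Fin n) → Bool` with the uniform measure: one independent fair sign for
each unordered pair, diagonal included, which is the law of `A_n`.
-/

namespace Vale.Agent.Results.P160.SparseKernel

open Filter Vale.Agent.P160

/-- For all large `n`, the probability that a uniform symmetric sign matrix kills a nonzero real
vector with at most `n - 24 n / log n` nonzero entries lies between `2 ^ (-n)` and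
`n ^ 3 * 2 ^ (-n)`. -/
theorem result : ∀ᶠ n : ℕ in atTop,
    ({f : Sym2 (Fin n) → Bool | ∃ v : Fin n → ℝ, v ≠ 0 ∧
          ({j : Fin n | v j ≠ 0}.ncard : ℝ) ≤ n - 24 * n / Real.log n ∧
          ∀ i, ∑ j, (if f s(i, j) then (1 : ℝ) else -1) * v j = 0}.ncard : ℝ) /
        Fintype.card (Sym2 (Fin n) → Bool) ∈
      Set.Icc ((1 / 2 : ℝ) ^ n) ((n : ℝ) ^ 3 * (1 / 2) ^ n) := by
  filter_upwards [sparseEvent_le, sparseEvent_ge] with n hle hge
  have hM : (0 : ℝ) < Fintype.card (Sym2 (Fin n) → Bool) := Nat.cast_pos.2 Fintype.card_pos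
  have hset : {f : Sym2 (Fin n) → Bool | ∃ v : Fin n → ℝ, v ≠ 0 ∧
      ({j : Fin n | v j ≠ 0}.ncard : ℝ) ≤ n - 24 * n / Real.log n ∧
      ∀ i, ∑ j, (if f s(i, j) then (1 : ℝ) else -1) * v j = 0} =
      sparseEvent n (n - 24 * n / Real.log n) := by
    ext f
    simp only [sparseEvent, row, sgn, Set.mem_setOf_eq, Set.ncard_eq_toFinset_card',
      Set.toFinset_setOf]
  rw [hset, Set.mem_Icc, le_div_iff₀ hM, div_le_iff₀ hM, mul_comm ((1 / 2 : ℝ) ^ n)]
  exact ⟨hge, hle⟩

end Vale.Agent.Results.P160.SparseKernel
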